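import Vale.Agent.P073Z.Sk1

/-!
# Small models: balls of dimension zero, one and two
-/

open Set Metric Topology Filter

namespace P073

variable {E F : Type*} [NormedAddCommGroup E] [NormedSpace ℝ E]
  [NormedAddCommGroup F] [NormedSpace ℝ F]

/-- a continuous linear equivalence as an ambient conical homeomorphism -/
def A12.ofCLE (L : E ≃L[ℝ] F) : ConHomeo (univ : Set E) (univ : Set F) where
  toFun := L
  invFun := L.symm
  mapsTo := mapsTo_univ _ _
  mapsTo_inv := mapsTo_univ _ _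
  left_inv := fun x _ => L.symm_apply_apply x
  right_inv := fun x _ => L.apply_symm_apply x
  cont := L.continuous.continuousOn
  cont_inv := L.symm.continuous.continuousOn
  conical := conicalOn_clm (L : E →L[ℝ] F)

theorem ConHomeo.invImgD {X S : Set E} {Y : Set F} (φ : ConHomeo X Y)
    (h : S ⊆ X) : φ.invFun '' (φ.toFun '' S) = S := by
  rw [image_image]
  have : ∀ x ∈ S, φ.invFun (φ.toFun x) = x := fun x hx => φ.left_inv (h hx)
  rw [image_congr this, image_id']

theorem ConHomeo.imgInvD {X : Set E} {Y S : Set F} (φ : ConHomeo X Y)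
    (h : S ⊆ Y) : φ.toFun '' (φ.invFun '' S) = S :=
  φ.symm.invImgD h

theorem ConHomeo.imgSubD {X S : Set E} {Y : Set F} (φ : ConHomeo X Y)
    (h : S ⊆ X) : φ.toFun '' S ⊆ Y := (image_mono h).trans φ.mapsTo.image_subset

theorem ConHomeo.invSubD {X : Set E} {Y S : Set F} (φ : ConHomeo X Y)
    (h : S ⊆ Y) : φ.invFun '' S ⊆ X := φ.symm.imgSubD h

theorem ConHomeo.memImgD {X S : Set E} {Y : Set F} (φ : ConHomeo X Y)
    (h : S ⊆ X) {x : E} (hx : x ∈ X) : φ.toFun x ∈ φ.toFun '' S ↔ x ∈ S :=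
  φ.injOn.mem_image_iff h hx

theorem ConHomeo.memInvD {X : Set E} {Y S : Set F} (φ : ConHomeo X Y)
    (h : S ⊆ Y) {x : E} : x ∈ φ.invFun '' S ↔ x ∈ X ∧ φ.toFun x ∈ S := by
  constructor
  · rintro ⟨y, hy, rfl⟩
    exact ⟨φ.mapsTo_inv (h hy), by rw [φ.right_inv (h hy)]; exact hy⟩
  · rintro ⟨hx, hS⟩
    exact ⟨_, hS, φ.left_inv hx⟩

namespace A12

theorem image_closedBall_of_norm (L : E ≃L[ℝ] F) (h : ∀ x, ‖L x‖ = ‖x‖) :
    L '' closedBall 0 1 = closedBall 0 1 := by
  ext y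
  constructor
  · rintro ⟨x, hx, rfl⟩
    rw [mem_closedBall_zero_iff] at hx ⊢
    rwa [h]
  · intro hy
    refine ⟨L.symm y, ?_, L.apply_symm_apply y⟩
    rw [mem_closedBall_zero_iff] at hy ⊢
    rwa [← h, L.apply_symm_apply]

theorem image_sphere_of_norm (L : E ≃L[ℝ] F) (h : ∀ x, ‖L x‖ = ‖x‖) :
    L '' sphere 0 1 = sphere 0 1 := by
  ext y
  constructor
  · rintro ⟨x, hx, rfl⟩
    rw [mem_sphere_zero_iff_norm] at hx ⊢
    rwa [h]
  · intro hy
    refine ⟨L.symm y, ?_, L.apply_symm_apply y⟩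
    rw [mem_sphere_zero_iff_norm] at hy ⊢
    rwa [← h, L.apply_symm_apply]

/-- the two models of the plane -/
noncomputable def e2 : (Fin 2 → ℝ) ≃L[ℝ] ℝ × ℝ := ContinuousLinearEquiv.finTwoArrow ℝ ℝ

theorem e2_apply (x : Fin 2 → ℝ) : e2 x = (x 0, x 1) := rfl

theorem norm_e2 (x : Fin 2 → ℝ) : ‖e2 x‖ = ‖x‖ := by
  rw [e2_apply, Prod.norm_def]
  apply le_antisymm
  · exact max_le (norm_le_pi_norm x 0) (norm_le_pi_norm x 1)
  · refine (pi_norm_le_iff_of_nonneg (by positivity)).2 fun i => ?_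
    fin_cases i
    · exact le_max_left _ _
    · exact le_max_right _ _

theorem norm_e2_symm (y : ℝ × ℝ) : ‖e2.symm y‖ = ‖y‖ := by
  rw [← norm_e2, e2.apply_symm_apply]

/-- the two models of the line -/
noncomputable def e1 : (Fin 1 → ℝ) ≃L[ℝ] ℝ := ContinuousLinearEquiv.funUnique (Fin 1) ℝ ℝ

theorem e1_apply (x : Fin 1 → ℝ) : e1 x = x 0 := rfl

theorem norm_e1 (x : Fin 1 → ℝ) : ‖e1 x‖ = ‖x‖ := by
  rw [e1_apply]
  apply le_antisymm
  · exact norm_le_pi_norm x 0
  · refine (pi_norm_le_iff_of_nonneg (by positivity)).2 fun i => ?_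
    fin_cases i
    exact le_rfl

theorem norm_e1_symm (y : ℝ) : ‖e1.symm y‖ = ‖y‖ := by
  rw [← norm_e1, e1.apply_symm_apply]

/-- change of the model of a ball -/
theorem conBall_iff_of_norm {n : ℕ} (L : (Fin n → ℝ) ≃L[ℝ] F) (h : ∀ x, ‖L x‖ = ‖x‖)
    {C B : Set E} : ConBall n C B ↔ B ⊆ C ∧
      ∃ φ : ConHomeo C (closedBall (0 : F) 1), φ.toFun '' B = sphere 0 1 := by
  let ψ : ConHomeo (closedBall (0 : Fin n → ℝ) 1) (closedBall (0 : F) 1) :=
    ((A12.ofCLE L).restr (locCone_closedBall_pi n 1).conicalSet (subset_univ _)).cast rfl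
      (image_closedBall_of_norm L h)
  have h1 : ψ.toFun '' sphere 0 1 = sphere 0 1 := image_sphere_of_norm L h
  constructor
  · rintro ⟨hB, φ, hφ⟩
    refine ⟨hB, φ.trans ψ, ?_⟩
    rw [ConHomeo.trans_toFun, image_comp, hφ, h1]
  · rintro ⟨hB, φ, hφ⟩
    refine ⟨hB, φ.trans ψ.symm, ?_⟩
    rw [ConHomeo.trans_toFun, image_comp, hφ, ← h1]
    exact ψ.invImgD sphere_subset_closedBall

theorem conBall_zero_iff {C B : Set E} : ConBall 0 C B ↔ (∃ a, C = {a}) ∧ B = ∅ := by
  have hs : sphere (0 : Fin 0 → ℝ) 1 = ∅ := by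
    ext x
    rw [mem_sphere_zero_iff_norm, Subsingleton.elim x 0, norm_zero]
    simp
  have hb : closedBall (0 : Fin 0 → ℝ) 1 = {0} := by
    ext x
    simp [Subsingleton.elim x 0]
  constructor
  · rintro ⟨hB, φ, hφ⟩
    refine ⟨⟨φ.invFun 0, ?_⟩, ?_⟩
    · have h1 : φ.invFun '' closedBall 0 1 = C := φ.symm.image_eq
      have h2 : φ.invFun '' closedBall 0 1 = φ.invFun '' {0} := congrArg (image φ.invFun) hb
      exact h1.symm.trans (h2.trans image_singleton)
    · rw [hs] at hφ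
      exact image_eq_empty.1 hφ
  · rintro ⟨⟨a, rfl⟩, rfl⟩
    refine ⟨empty_subset _, ConHomeo.ofCompact isCompact_singleton (fun _ => 0) continuousOn_const
      (injOn_singleton _ _) (conicalOn_const _ (Convex.conicalSet (convex_singleton a))) ?_, ?_⟩
    · rw [hb, image_singleton]
    · rw [hs, image_empty]

theorem conBall_one_iff {C B : Set E} : ConBall 1 C B ↔ ∃ p q, IsArc C p q ∧ B = {p, q} := by
  rw [conBall_iff_of_norm e1 norm_e1]
  have hb : closedBall (0 : ℝ) 1 = Icc (-1) 1 := by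
    rw [Real.closedBall_eq_Icc]; norm_num
  have hs : sphere (0 : ℝ) 1 = {-1, 1} := by
    rw [Real.sphere_eq_pair _ zero_le_one]; norm_num
  have hsub : ({-1, 1} : Set ℝ) ⊆ closedBall 0 1 := hs ▸ sphere_subset_closedBall
  constructor
  · rintro ⟨hB, φ, hφ⟩
    refine ⟨φ.invFun (-1), φ.invFun 1,
      IsArc.of_param (by norm_num : (-1:ℝ) < 1) (φ.symm.cast hb rfl) rfl rfl, ?_⟩
    rw [← image_pair, ← hs, ← hφ, φ.invImgD hB]
  · rintro ⟨p, q, hA, rfl⟩
    obtain ⟨φ, h0, h1⟩ := hA.exists_param (by norm_num : (-1:ℝ) < 1)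
    refine ⟨insert_subset hA.left_mem (singleton_subset_iff.2 hA.right_mem),
      φ.symm.cast rfl hb.symm, ?_⟩
    rw [hs, ← h0, ← h1, ← image_pair]
    exact φ.invImgD (hb ▸ hsub)

theorem isCircle_iff_conSphere {J : Set E} : IsCircle J ↔ ConSphere 1 J := by
  let ψ : ConHomeo (sphere (0 : Fin 2 → ℝ) 1) (sphere (0 : ℝ × ℝ) 1) :=
    ((A12.ofCLE e2).restr (conicalSet_sphere_pi 2) (subset_univ _)).cast rfl
      (image_sphere_of_norm e2 norm_e2)
  exact ⟨fun ⟨φ⟩ => ⟨φ.symm.trans ψ.symm⟩, fun ⟨φ⟩ => ⟨ψ.symm.trans φ.symm⟩⟩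

theorem conBall_two_iff {D B : Set E} : ConBall 2 D B ↔ B ⊆ D ∧
    ∃ φ : ConHomeo D (closedBall (0 : ℝ × ℝ) 1), φ.toFun '' B = sphere 0 1 :=
  conBall_iff_of_norm e2 norm_e2

theorem _root_.P073.ConBall.isCircleD {D B : Set E} (h : ConBall 2 D B) : IsCircle B :=
  isCircle_iff_conSphere.2 h.conSphere

theorem conBall_square : ConBall 2 (closedBall (0 : ℝ × ℝ) 1) (sphere 0 1) :=
  conBall_two_iff.2 ⟨sphere_subset_closedBall,
    ConHomeo.refl (locCone_closedBall_prod 1).conicalSet, image_id' _⟩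

theorem ambDisc_square : AmbDisc (closedBall (0 : ℝ × ℝ) 1) :=
  ⟨ConHomeo.refl (IsOpen.conicalSet isOpen_univ), image_id' _⟩

theorem _root_.P073.AmbDisc.conBallD {D : Set (ℝ × ℝ)} (h : AmbDisc D) : ConBall 2 D (frontier D) := by
  obtain ⟨Φ, rfl⟩ := h
  rw [← Φ.image_frontier, frontier_square]
  exact conBall_square.image Φ (subset_univ _)

/-- invariance of domain in the product model of the plane -/
theorem iod_prod (hI : IOD) {U : Set (ℝ × ℝ)} {f : ℝ × ℝ → ℝ × ℝ} (hU : IsOpen U)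
    (hf : ContinuousOn f U) (hi : InjOn f U) : IsOpen (f '' U) := by
  have h1 : IsOpen ((fun x => e2.symm (f (e2 x))) '' (e2 ⁻¹' U)) := by
    refine hI (hU.preimage e2.continuous) ?_ ?_
    · exact e2.symm.continuous.comp_continuousOn
        (hf.comp e2.continuous.continuousOn fun x hx => hx)
    · intro x hx y hy hxy
      exact e2.injective (hi hx hy (e2.symm.injective hxy))
  have h2 : f '' U = e2.symm ⁻¹' ((fun x => e2.symm (f (e2 x))) '' (e2 ⁻¹' U)) := by
    ext y
    constructor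
    · rintro ⟨x, hx, rfl⟩
      exact ⟨e2.symm x, by simpa using hx, by simp⟩
    · rintro ⟨x, hx, hxy⟩
      exact ⟨e2 x, hx, e2.symm.injective hxy⟩
  rw [h2]
  exact h1.preimage e2.symm.continuous

theorem not_isBounded_compl {D : Set (ℝ × ℝ)} (hD : IsCompact D) :
    ¬ Bornology.IsBounded Dᶜ := by
  intro hb
  have hb' : Bornology.IsBounded (univ : Set (ℝ × ℝ)) := by
    rw [← union_compl_self D]
    exact hD.isBounded.union hb
  exact NormedSpace.unbounded_univ ℝ (ℝ × ℝ) hb'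

/-- a planar disc is an ambient disc -/
theorem _root_.P073.ConBall.ambDiscD (hI : IOD) {D B : Set (ℝ × ℝ)} (h : ConBall 2 D B) :
    AmbDisc D ∧ B = frontier D := by
  obtain ⟨D', hD', hf⟩ := SCH.schoenflies h.isCircleD
  have hDc := h.isCompact
  obtain ⟨hB, φ, hφ⟩ := conBall_two_iff.1 h
  have hW : D \ B = φ.invFun '' ball 0 1 := by
    ext x
    rw [φ.memInvD ball_subset_closedBall, ← closedBall_sdiff_sphere, ← hφ]
    constructor
    · rintro ⟨hx, hxB⟩
      exact ⟨hx, φ.mapsTo hx, fun hh => hxB ((φ.memImgD hB hx).1 hh)⟩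
    · rintro ⟨hx, _, hxB⟩
      exact ⟨hx, fun hh => hxB (mem_image_of_mem _ hh)⟩
  have hWo : IsOpen (D \ B) := by
    rw [hW]
    exact iod_prod hI isOpen_ball (φ.cont_inv.mono ball_subset_closedBall)
      (φ.symm.injOn.mono ball_subset_closedBall)
  have hWc : IsConnected (D \ B) := by
    rw [hW]
    exact ((convex_ball (0 : ℝ × ℝ) 1).isConnected (nonempty_ball.2 one_pos)).image _
      (φ.cont_inv.mono ball_subset_closedBall)
  have hcl : closure (D \ B) ⊆ D := closure_minimal sdiff_subset hDc.isClosed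
  have hdis : Disjoint (D \ B) (frontier D') := hf ▸ disjoint_sdiff_left
  have key : D = D' := by
    rcases subset_interior_or_compl hWc.isPreconnected hdis with h1 | h1
    · have h2 : interior D' ⊆ D \ B := by
        refine hD'.isConnected_interior.isPreconnected.subset_of_closure_inter_subset hWo ?_ ?_
        · obtain ⟨x, hx⟩ := hWc.nonempty
          exact ⟨x, h1 hx, hx⟩
        · rintro x ⟨hx1, hx2⟩
          refine ⟨hcl hx1, fun hxB => ?_⟩
          rw [← hf] at hxB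
          exact hxB.2 hx2
      apply Subset.antisymm
      · intro x hx
        by_cases hxB : x ∈ B
        · rw [← hf] at hxB
          exact hD'.isClosed.frontier_subset hxB
        · exact interior_subset (h1 ⟨hx, hxB⟩)
      · rw [← hD'.closure_interior]
        exact closure_minimal (h2.trans sdiff_subset) hDc.isClosed
    · exfalso
      rw [hD'.isClosed.closure_eq] at h1
      have h2 : D'ᶜ ⊆ D \ B := by
        refine hD'.isPreconnected_compl.subset_of_closure_inter_subset hWo ?_ ?_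
        · obtain ⟨x, hx⟩ := hWc.nonempty
          exact ⟨x, h1 hx, hx⟩
        · rintro x ⟨hx1, hx2⟩
          refine ⟨hcl hx1, fun hxB => ?_⟩
          rw [← hf] at hxB
          exact hx2 (hD'.isClosed.frontier_subset hxB)
      exact not_isBounded_compl hD'.isCompact (hDc.isBounded.subset (h2.trans sdiff_subset))
  subst key
  exact ⟨hD', hf.symm⟩

end A12

open A12 in
theorem mod_of (hI : IOD) : MOD := fun {_} _ _ =>
  ⟨conBall_zero_iff, conBall_one_iff, isCircle_iff_conSphere, conBall_two_iff,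
    AmbDisc.conBallD, ConBall.ambDiscD hI⟩

end P073
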