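import Vale.Agent.P073Z.A12.Mod

/-!
# Arcs in arcs and in circles
-/

open Set Metric Topology Filter

namespace P073

variable {E F : Type*} [NormedAddCommGroup E] [NormedSpace ℝ E]
  [NormedAddCommGroup F] [NormedSpace ℝ F]

namespace A12

/-- an arc on the line is an interval -/
theorem arc_real {A : Set ℝ} {s t : ℝ} (h : IsArc A s t) : A = uIcc s t := by
  obtain ⟨φ, h0, h1⟩ := h
  have hA : φ.toFun '' Icc 0 1 = A := φ.image_eq
  rcases φ.cont.strictMonoOn_of_injOn_Icc' zero_le_one φ.injOn with hm | hm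
  · have := φ.cont.image_Icc_of_monotoneOn zero_le_one hm.monotoneOn
    rw [h0, h1] at this
    have hle : s ≤ t := by
      rw [← h0, ← h1]
      exact hm.monotoneOn ⟨le_rfl, zero_le_one⟩ ⟨zero_le_one, le_rfl⟩ zero_le_one
    rw [uIcc_of_le hle]
    exact hA.symm.trans this
  · have := φ.cont.image_Icc_of_antitoneOn zero_le_one hm.antitoneOn
    rw [h0, h1] at this
    have hle : t ≤ s := by
      rw [← h0, ← h1]
      exact hm.antitoneOn ⟨le_rfl, zero_le_one⟩ ⟨zero_le_one, le_rfl⟩ zero_le_one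
    rw [uIcc_of_ge hle]
    exact hA.symm.trans this

/-- a piece of a parametrised arc -/
theorem arc_piece {A : Set E} (φ : ConHomeo (Icc (0:ℝ) 1) A) {s t : ℝ} (hs : 0 ≤ s) (hst : s < t)
    (ht : t ≤ 1) : IsArc (φ.toFun '' Icc s t) (φ.toFun s) (φ.toFun t) :=
  IsArc.of_param hst (φ.restr (Convex.conicalSet (convex_Icc s t)) (Icc_subset_Icc hs ht)) rfl rfl

theorem arc_upiece {A : Set E} (φ : ConHomeo (Icc (0:ℝ) 1) A) {s t : ℝ} (hs : s ∈ Icc (0:ℝ) 1)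
    (ht : t ∈ Icc (0:ℝ) 1) (hst : s ≠ t) :
    IsArc (φ.toFun '' uIcc s t) (φ.toFun s) (φ.toFun t) := by
  rcases lt_or_gt_of_ne hst with h | h
  · rw [uIcc_of_le h.le]
    exact arc_piece φ hs.1 h ht.2
  · rw [uIcc_of_ge h.le]
    exact (arc_piece φ ht.1 h hs.2).symm

/-- two subarcs of an arc with the same ends are equal -/
theorem subarc_unique {A A₁ A₂ : Set E} {p q a b : E} (h : IsArc A p q) (h₁ : IsArc A₁ a b)
    (h₂ : IsArc A₂ a b) (s₁ : A₁ ⊆ A) (s₂ : A₂ ⊆ A) : A₁ = A₂ := by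
  obtain ⟨φ, -, -⟩ := h
  have e₁ := arc_real (h₁.image φ.symm s₁)
  have e₂ := arc_real (h₂.image φ.symm s₂)
  have e : φ.invFun '' A₁ = φ.invFun '' A₂ := e₁.trans e₂.symm
  rw [← φ.imgInvD s₁, ← φ.imgInvD s₂, e]

theorem exists_subarc {A : Set E} {p q a b : E} (h : IsArc A p q) (ha : a ∈ A) (hb : b ∈ A)
    (hab : a ≠ b) : ∃ A', IsArc A' a b ∧ A' ⊆ A := by
  obtain ⟨φ, -, -⟩ := h
  have hs := φ.mapsTo_inv ha
  have ht := φ.mapsTo_inv hb
  have hne : φ.invFun a ≠ φ.invFun b := fun e => hab (φ.symm.injOn ha hb e)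
  have := arc_upiece φ hs ht hne
  rw [φ.right_inv ha, φ.right_inv hb] at this
  exact ⟨_, this, φ.imgSubD (uIcc_subset_Icc hs ht)⟩

theorem existsUnique_subarc {A : Set E} {p q a b : E} (h : IsArc A p q) (ha : a ∈ A) (hb : b ∈ A)
    (hab : a ≠ b) : ∃! A', IsArc A' a b ∧ A' ⊆ A := by
  obtain ⟨A', h1, h2⟩ := exists_subarc h ha hb hab
  exact ⟨A', ⟨h1, h2⟩, fun A'' hh => subarc_unique h hh.1 h1 hh.2 h2⟩

/-- splitting an arc at an inner point -/
theorem arc_split {A : Set E} {p q a : E} (h : IsArc A p q) (ha : a ∈ A) (hp : a ≠ p)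
    (hq : a ≠ q) : ∃ A₁ A₂, IsArc A₁ p a ∧ IsArc A₂ a q ∧ A₁ ∪ A₂ = A ∧ A₁ ∩ A₂ = {a} := by
  obtain ⟨φ, h0, h1⟩ := h
  have hs := φ.mapsTo_inv ha
  have ea := φ.right_inv ha
  generalize φ.invFun a = s at hs ea
  have hs0 : 0 < s := lt_of_le_of_ne hs.1 fun e => hp (by rw [← ea, ← e, h0])
  have hs1 : s < 1 := lt_of_le_of_ne hs.2 fun e => hq (by rw [← ea, e, h1])
  have a1 := arc_piece φ le_rfl hs0 hs.2
  have a2 := arc_piece φ hs.1 hs1 le_rfl
  rw [h0, ea] at a1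
  rw [h1, ea] at a2
  refine ⟨_, _, a1, a2, ?_, ?_⟩
  · rw [← image_union, Icc_union_Icc_eq_Icc hs.1 hs.2]
    exact φ.image_eq
  · rw [← φ.injOn.image_inter (Icc_subset_Icc le_rfl hs.2) (Icc_subset_Icc hs.1 le_rfl),
      Icc_inter_Icc_eq_singleton hs.1 hs.2, image_singleton, ea]

theorem arc_inner_nonempty {A : Set E} {p q : E} (h : IsArc A p q) : (A \ {p, q}).Nonempty := by
  obtain ⟨φ, h0, h1⟩ := h
  have hm : (1 / 2 : ℝ) ∈ Icc (0:ℝ) 1 := ⟨by norm_num, by norm_num⟩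
  refine ⟨φ.toFun (1 / 2), φ.mapsTo hm, ?_⟩
  rintro (e | e)
  · rw [← h0] at e
    have := φ.injOn hm ⟨le_rfl, zero_le_one⟩ e
    norm_num at this
  · rw [mem_singleton_iff, ← h1] at e
    have := φ.injOn hm ⟨zero_le_one, le_rfl⟩ e
    norm_num at this

theorem arc_not_subset_pair {A : Set E} {p q : E} (h : IsArc A p q) : ¬ A ⊆ {p, q} := by
  obtain ⟨x, hx, hx'⟩ := arc_inner_nonempty h
  exact fun hs => hx' (hs hx)

theorem pair_subset_arc {A : Set E} {p q : E} (h : IsArc A p q) : {p, q} ⊆ A :=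
  insert_subset h.left_mem (singleton_subset_iff.2 h.right_mem)

theorem arc_sdiff_left {A : Set E} {p q : E} (h : IsArc A p q) : IsPreconnected (A \ {p}) := by
  obtain ⟨φ, h0, h1⟩ := h
  have e : φ.toFun '' Ioc 0 1 = A \ {p} := by
    rw [← Icc_sdiff_left, φ.injOn.image_sdiff_subset, image_singleton, h0, φ.image_eq]
    exact singleton_subset_iff.2 ⟨le_rfl, zero_le_one⟩
  rw [← e]
  exact isPreconnected_Ioc.image _ (φ.cont.mono Ioc_subset_Icc_self)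

theorem arc_subset_closure_inner {A : Set E} {p q : E} (h : IsArc A p q) :
    A ⊆ closure (A \ {p, q}) := by
  obtain ⟨φ, h0, h1⟩ := h
  have e : φ.toFun '' Ioo 0 1 = A \ {p, q} := by
    rw [← Icc_sdiff_both, φ.injOn.image_sdiff_subset, image_pair, h0, h1, φ.image_eq]
    exact insert_subset ⟨le_rfl, zero_le_one⟩ (singleton_subset_iff.2 ⟨zero_le_one, le_rfl⟩)
  have hc : ContinuousOn φ.toFun (closure (Ioo 0 1)) := by
    rw [closure_Ioo zero_ne_one]; exact φ.cont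
  have := hc.image_closure
  rw [closure_Ioo zero_ne_one, e, φ.image_eq] at this
  exact this

/-- moving the second end of a pair of arcs -/
theorem move_end {A B : Set E} {p v q : E} (hA : IsArc A p v) (hB : IsArc B p v)
    (hAB : A ∩ B ⊆ {p, v}) (hq : q ∈ A ∪ B) (hqp : q ≠ p) :
    ∃ A' B', IsArc A' p q ∧ IsArc B' p q ∧ A' ∩ B' ⊆ {p, q} ∧ A' ∪ B' = A ∪ B := by
  by_cases hqv : q = v
  · subst hqv
    exact ⟨A, B, hA, hB, hAB, rfl⟩
  wlog hqA : q ∈ A generalizing A B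
  · have := this hB hA (by rwa [inter_comm]) (by rwa [union_comm]) (hq.resolve_left hqA)
    rwa [union_comm B A] at this
  obtain ⟨A₁, A₂, a1, a2, hu, hi⟩ := arc_split hA hqA hqp hqv
  have s1 : A₁ ⊆ A := hu ▸ subset_union_left
  have s2 : A₂ ⊆ A := hu ▸ subset_union_right
  have hp2 : p ∉ A₂ := fun hp => hqp (mem_singleton_iff.1 (hi ▸ (⟨a1.left_mem, hp⟩ : p ∈ A₁ ∩ A₂))).symm
  have hv1 : v ∉ A₁ := fun hv => hqv (mem_singleton_iff.1 (hi ▸ (⟨hv, a2.right_mem⟩ : v ∈ A₁ ∩ A₂))).symm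
  refine ⟨A₁, B ∪ A₂, a1, hB.trans a2.symm ?_, ?_, ?_⟩
  · rintro x ⟨hx1, hx2⟩
    rcases hAB ⟨s2 hx2, hx1⟩ with e | e
    · exact absurd (e ▸ hx2) hp2
    · exact e
  · rintro x ⟨hx1, hx2 | hx2⟩
    · rcases hAB ⟨s1 hx1, hx2⟩ with e | e
      · exact Or.inl e
      · exact absurd (mem_singleton_iff.1 e ▸ hx1) hv1
    · exact Or.inr (hi ▸ (⟨hx1, hx2⟩ : x ∈ A₁ ∩ A₂))
  · rw [← hu, union_comm B A₂, union_assoc]

theorem circle_arcs {J : Set E} {p q : E} (hJ : IsCircle J) (hp : p ∈ J) (hq : q ∈ J)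
    (hpq : p ≠ q) : ∃ A₁ A₂, IsArc A₁ p q ∧ IsArc A₂ p q ∧ A₁ ∪ A₂ = J ∧ A₁ ∩ A₂ = {p, q} := by
  obtain ⟨A, B, u, v, hA, hB, hAB, rfl⟩ := hJ.exists_arcs
  have key : ∃ A' B' w, IsArc A' p w ∧ IsArc B' p w ∧ A' ∩ B' ⊆ {p, w} ∧ A' ∪ B' = A ∪ B := by
    by_cases hpu : p = u
    · subst hpu
      exact ⟨A, B, v, hA, hB, hAB, rfl⟩
    · obtain ⟨A', B', a, b, c, d⟩ := move_end hA hB hAB hp hpu
      exact ⟨A', B', u, a.symm, b.symm, by rwa [pair_comm], d⟩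
  obtain ⟨A', B', w, a, b, c, d⟩ := key
  obtain ⟨A₁, A₂, a', b', c', d'⟩ := move_end a b c (d ▸ hq) hpq.symm
  exact ⟨A₁, A₂, a', b', d'.trans d,
    c'.antisymm (subset_inter (pair_subset_arc a') (pair_subset_arc b'))⟩

/-- an arc inside the union of two arcs with the same ends is one of them -/
theorem arc_eq_or {A A₁ A₂ : Set E} {p q : E} (h : IsArc A p q) (h₁ : IsArc A₁ p q)
    (h₂ : IsArc A₂ p q) (hi : A₁ ∩ A₂ ⊆ {p, q}) (hs : A ⊆ A₁ ∪ A₂) : A = A₁ ∨ A = A₂ := by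
  have hc := h.isPreconnected_interior
  have key : A ⊆ A₁ ∨ A ⊆ A₂ := by
    by_contra hn
    rw [not_or, not_subset, not_subset] at hn
    obtain ⟨⟨x, hx, hx1⟩, ⟨y, hy, hy2⟩⟩ := hn
    have := isPreconnected_closed_iff.1 hc A₁ A₂ h₁.isClosed h₂.isClosed
      (sdiff_subset.trans hs)
      ⟨y, ⟨hy, fun e => hy2 (pair_subset_arc h₂ e)⟩, (hs hy).resolve_right hy2⟩
      ⟨x, ⟨hx, fun e => hx1 (pair_subset_arc h₁ e)⟩, (hs hx).resolve_left hx1⟩
    obtain ⟨z, hz, hz'⟩ := this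
    exact hz.2 (hi hz')
  rcases key with k | k
  · exact Or.inl (subarc_unique h₁ h h₁ k Subset.rfl)
  · exact Or.inr (subarc_unique h₂ h h₂ k Subset.rfl)

theorem circle_two_points {J : Set E} (hJ : IsCircle J) : ∃ p ∈ J, ∃ q ∈ J, p ≠ q := by
  obtain ⟨A, B, u, v, hA, hB, hAB, rfl⟩ := hJ.exists_arcs
  exact ⟨u, Or.inl hA.left_mem, v, Or.inl hA.right_mem, hA.ne⟩

theorem circle_other_point {J : Set E} (hJ : IsCircle J) (p : E) : ∃ q ∈ J, p ≠ q := by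
  obtain ⟨u, hu, v, hv, huv⟩ := circle_two_points hJ
  by_cases h : p = u
  · exact ⟨v, hv, h ▸ huv⟩
  · exact ⟨u, hu, h⟩

theorem circle_eq_of_subset {J J' : Set E} (hJ : IsCircle J) (hJ' : IsCircle J') (hs : J ⊆ J') :
    J = J' := by
  obtain ⟨p, hp, q, hq, hpq⟩ := circle_two_points hJ
  obtain ⟨A₁, A₂, a1, a2, rfl, hi⟩ := circle_arcs hJ hp hq hpq
  obtain ⟨B₁, B₂, b1, b2, rfl, hj⟩ := circle_arcs hJ' (hs hp) (hs hq) hpq
  have hne : A₁ ≠ A₂ := by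
    rintro rfl
    rw [inter_self] at hi
    exact arc_not_subset_pair a1 hi.le
  rcases arc_eq_or a1 b1 b2 hj.le (subset_union_left.trans hs) with e1 | e1 <;>
    rcases arc_eq_or a2 b1 b2 hj.le (subset_union_right.trans hs) with e2 | e2
  · exact absurd (e1.trans e2.symm) hne
  · rw [e1, e2]
  · rw [e1, e2, union_comm]
  · exact absurd (e1.trans e2.symm) hne

theorem circle_not_subset_arc {J A : Set E} {p q : E} (hJ : IsCircle J) (hA : IsArc A p q) :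
    ¬ J ⊆ A := by
  intro hs
  obtain ⟨B₁, B₂, u, v, b1, b2, hi, rfl⟩ := hJ.exists_arcs
  have e := subarc_unique hA b1 b2 (subset_union_left.trans hs) (subset_union_right.trans hs)
  subst e
  rw [inter_self] at hi
  exact arc_not_subset_pair b1 hi

theorem circle_isConnected {J : Set E} (hJ : IsCircle J) : IsConnected J := by
  obtain ⟨B₁, B₂, u, v, b1, b2, -, rfl⟩ := hJ.exists_arcs
  exact b1.isConnected.union ⟨u, b1.left_mem, b2.left_mem⟩ b2.isConnected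

theorem circle_sdiff_point {J : Set E} (hJ : IsCircle J) (p : E) : IsPreconnected (J \ {p}) := by
  by_cases hp : p ∈ J
  · obtain ⟨q, hq, hpq⟩ := circle_other_point hJ p
    obtain ⟨A₁, A₂, a1, a2, rfl, -⟩ := circle_arcs hJ hp hq hpq
    rw [union_sdiff_distrib]
    exact IsPreconnected.union q ⟨a1.right_mem, hpq.symm⟩ ⟨a2.right_mem, hpq.symm⟩
      (arc_sdiff_left a1) (arc_sdiff_left a2)
  · rw [sdiff_singleton_eq_self hp]
    exact (circle_isConnected hJ).isPreconnected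

/-- the last point of an arc in a closed set -/
theorem arc_last_exit {A K : Set E} {p q : E} (h : IsArc A p q) (hK : IsClosed K) (hp : p ∈ K)
    (hq : q ∉ K) : ∃ a ∈ A ∩ K, ∃ A', IsArc A' a q ∧ A' ⊆ A ∧ A' ∩ K = {a} := by
  obtain ⟨φ, h0, h1⟩ := h
  have hc : IsCompact (Icc (0:ℝ) 1 ∩ φ.toFun ⁻¹' K) :=
    isCompact_Icc.of_isClosed_subset (φ.cont.preimage_isClosed_of_isClosed isClosed_Icc hK)
      inter_subset_left
  obtain ⟨s, ⟨hs, hsK⟩, hmax⟩ := hc.exists_isGreatest ⟨0, ⟨le_rfl, zero_le_one⟩, by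
    show φ.toFun 0 ∈ K
    rw [h0]; exact hp⟩
  have hs1 : s < 1 := lt_of_le_of_ne hs.2 fun e => hq (by
    rw [e] at hsK
    rw [← h1]; exact hsK)
  have a2 := arc_piece φ hs.1 hs1 le_rfl
  rw [h1] at a2
  refine ⟨φ.toFun s, ⟨φ.mapsTo hs, hsK⟩, _, a2, φ.imgSubD (Icc_subset_Icc hs.1 le_rfl), ?_⟩
  apply Subset.antisymm
  · rintro _ ⟨⟨t, ht, rfl⟩, htK⟩
    have : t ≤ s := hmax ⟨⟨hs.1.trans ht.1, ht.2⟩, htK⟩
    rw [le_antisymm this ht.1]
    rfl
  · exact singleton_subset_iff.2 ⟨a2.left_mem, hsK⟩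

end A12

open A12 in
theorem arcs : ARCS := fun {_} _ _ =>
  ⟨existsUnique_subarc, arc_split, fun hJ hp hq hpq => by
      obtain ⟨A₁, A₂, a1, a2, hu, hi⟩ := circle_arcs hJ hp hq hpq
      exact ⟨A₁, A₂, a1, a2, hu, hi, fun A hA hs => arc_eq_or hA a1 a2 hi.le (hu ▸ hs)⟩,
    circle_eq_of_subset, circle_not_subset_arc,
    fun hJ => ⟨circle_isConnected hJ, circle_sdiff_point hJ _⟩, arc_last_exit⟩

end P073
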