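import Vale.Agent.P073Z.A12.Cid

/-!
# A cross-cut splits a disc
-/

open Set Metric Topology Filter

namespace P073

variable {E F : Type*} [NormedAddCommGroup E] [NormedSpace ℝ E]
  [NormedAddCommGroup F] [NormedSpace ℝ F]

namespace A12

open H339

/-- normal form of an ambient disc with two marked boundary arcs -/
theorem exists_marked_tri {D A β : Set (ℝ × ℝ)} {p q : ℝ × ℝ} (hD : AmbDisc D)
    (hA : IsArc A p q) (hβ : IsArc β p q) (hi : A ∩ β ⊆ {p, q}) (hf : frontier D = A ∪ β) :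
    ∃ Φ : ConHomeo (univ : Set (ℝ × ℝ)) (univ : Set (ℝ × ℝ)), Φ.toFun '' tri = D ∧
      Φ.toFun '' roof = A ∧ Φ.toFun '' bottom = β ∧ Φ.toFun (-1, 0) = p ∧ Φ.toFun (1, 0) = q := by
  obtain ⟨φ, h0, h1, h2, h3⟩ := isArc_roof.exists_homeo_union isArc_bottom roof_inter_bottom
    hA hβ hi
  obtain ⟨Φ, hΦ, hK⟩ := hD.exists_marked isCompact_tri convex_tri interior_tri_nonempty
    (φ.cast frontier_tri.symm hf.symm)
  have hΦ' : EqOn Φ.toFun φ.toFun (roof ∪ bottom) := fun x hx => hΦ (frontier_tri ▸ hx)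
  refine ⟨Φ, hK, ?_, ?_, ?_, ?_⟩
  · rw [(hΦ'.mono subset_union_left).image_eq, h2]
  · rw [(hΦ'.mono subset_union_right).image_eq, h3]
  · rw [hΦ' (Or.inl isArc_roof.left_mem), h0]
  · rw [hΦ' (Or.inl isArc_roof.right_mem), h1]

theorem tri_outside {a r : ℝ} (hr : 2 * r ≤ 1 - |a|) :
    ball ((a, 0) : ℝ × ℝ) r \ tri = ball (a, 0) r ∩ {z | z.2 < 0} := by
  ext ⟨x, y⟩
  constructor
  · rintro ⟨h1, h2⟩
    refine ⟨h1, ?_⟩
    by_contra hy
    rw [mem_ball, Prod.dist_eq, max_lt_iff, Real.dist_eq, Real.dist_eq, sub_zero] at h1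
    have hy' : 0 ≤ y := not_lt.1 hy
    refine h2 ⟨?_, hy'⟩
    have h3 : |x| ≤ |x - a| + |a| := by
      have := abs_add_le (x - a) a
      rwa [sub_add_cancel] at this
    have h4 := le_abs_self y
    show |x| + y ≤ 1
    linarith [h1.1, h1.2]
  · rintro ⟨h1, h2⟩
    exact ⟨h1, fun hh => absurd hh.2 (not_le.2 h2)⟩

/-- near an inner point of a boundary arc the outside of a disc is connected -/
theorem local_outside {D A β N : Set (ℝ × ℝ)} {p q x : ℝ × ℝ} (hD : AmbDisc D)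
    (hA : IsArc A p q) (hβ : IsArc β p q) (hi : A ∩ β ⊆ {p, q}) (hf : frontier D = A ∪ β)
    (hx : x ∈ β \ {p, q}) (hN : N ∈ 𝓝 x) :
    ∃ U, IsOpen U ∧ x ∈ U ∧ U ⊆ N ∧ IsPreconnected (U \ D) := by
  obtain ⟨Φ, rfl, -, rfl, rfl, rfl⟩ := exists_marked_tri hD hA hβ hi hf
  obtain ⟨⟨⟨a, b⟩, ⟨ha, hb⟩, rfl⟩, hx'⟩ := hx
  simp only at ha hb
  subst hb
  have ha' : |a| < 1 := by
    refine lt_of_le_of_ne ha fun e => hx' ?_
    rcases eq_or_eq_neg_of_abs_eq e with e | e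
    · right; rw [e]; rfl
    · left; rw [e]
  obtain ⟨r, hr, hrN⟩ := Metric.nhds_basis_ball.mem_iff.1
    (Φ.continuous.continuousAt.preimage_mem_nhds hN)
  have hr' : 0 < min r ((1 - |a|) / 2) := lt_min hr (by linarith)
  refine ⟨Φ.toFun '' ball (a, 0) (min r ((1 - |a|) / 2)),
    Φ.toHomeomorph.isOpenMap _ isOpen_ball, mem_image_of_mem _ (mem_ball_self hr'), ?_, ?_⟩
  · rintro _ ⟨z, hz, rfl⟩
    exact hrN (ball_subset_ball (min_le_left _ _) hz)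
  · rw [← image_sdiff Φ.injective, tri_outside (by linarith [min_le_right r ((1 - |a|) / 2)])]
    refine IsPreconnected.image ?_ _ Φ.continuous.continuousOn
    exact ((convex_ball _ _).inter
      (convex_halfSpace_lt (LinearMap.snd ℝ ℝ ℝ).isLinear 0)).isPreconnected

theorem inter_frontier_eq {Q D β B₁ : Set (ℝ × ℝ)} (hD : AmbDisc D) (hDQ : D ⊆ Q)
    (hf : frontier D = β ∪ B₁) (h1 : β ∩ frontier Q ⊆ B₁) (h2 : B₁ ⊆ frontier Q) :
    D ∩ frontier Q = B₁ := by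
  apply Subset.antisymm
  · rintro x ⟨hx, hxQ⟩
    by_cases hxf : x ∈ frontier D
    · rw [hf] at hxf
      exact hxf.elim (fun h => h1 ⟨h, hxQ⟩) id
    · have : x ∈ interior D := ambDisc_sdiff_frontier hD ▸ (⟨hx, hxf⟩ : x ∈ D \ frontier D)
      exact absurd (interior_mono hDQ this) hxQ.2
  · exact subset_inter (subset_union_right.trans (hf ▸ hD.isClosed.frontier_subset)) h2

theorem interior_disjoint {Q D₁ D₂ β B₁ B₂ : Set (ℝ × ℝ)} {p q : ℝ × ℝ} (h₁ : AmbDisc D₁)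
    (h₂ : AmbDisc D₂) (s₁ : D₁ ⊆ Q) (f₁ : frontier D₁ = β ∪ B₁) (f₂ : frontier D₂ = β ∪ B₂)
    (e₂ : D₂ ∩ frontier Q = B₂) (b₁ : IsArc B₁ p q) (hb : B₁ ⊆ frontier Q)
    (hi : B₁ ∩ B₂ ⊆ {p, q}) : Disjoint (interior D₁) D₂ := by
  have hdis : Disjoint (interior D₁) (frontier D₂) := by
    rw [Set.disjoint_left, f₂]
    rintro x hx (h | h)
    · have : x ∈ frontier D₁ := f₁ ▸ Or.inl h
      exact this.2 hx
    · have : x ∈ D₂ ∩ frontier Q := e₂ ▸ h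
      exact this.2.2 (interior_mono s₁ hx)
  rcases subset_interior_or_compl h₁.isConnected_interior.isPreconnected hdis with k | k
  · exfalso
    have k1 : D₁ ⊆ D₂ := by
      rw [← h₁.closure_interior]
      exact closure_minimal (k.trans interior_subset) h₂.isClosed
    refine arc_not_subset_pair b₁ fun x hx => hi ⟨hx, ?_⟩
    rw [← e₂]
    exact ⟨k1 (h₁.isClosed.frontier_subset (f₁ ▸ Or.inr hx)), hb hx⟩
  · rw [h₂.isClosed.closure_eq] at k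
    exact subset_compl_iff_disjoint_right.1 k

/-- the cross-cut theorem in the plane -/
theorem crosscut_plane {Q β B₁ B₂ : Set (ℝ × ℝ)} {p q : ℝ × ℝ} (hQ : AmbDisc Q)
    (hβ : IsArc β p q) (hβQ : β ⊆ Q) (hβB : β ∩ frontier Q = {p, q}) (b₁ : IsArc B₁ p q)
    (b₂ : IsArc B₂ p q) (hu : B₁ ∪ B₂ = frontier Q) (hi : B₁ ∩ B₂ = {p, q}) :
    ∃ D₁ D₂, AmbDisc D₁ ∧ frontier D₁ = β ∪ B₁ ∧ AmbDisc D₂ ∧ frontier D₂ = β ∪ B₂ ∧
      D₁ ∪ D₂ = Q ∧ D₁ ∩ D₂ = β ∧ D₁ ∩ frontier Q = B₁ ∧ D₂ ∩ frontier Q = B₂ := by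
  have c₁ : B₁ ⊆ frontier Q := hu ▸ subset_union_left
  have c₂ : B₂ ⊆ frontier Q := hu ▸ subset_union_right
  have i₁ : β ∩ B₁ ⊆ {p, q} := hβB ▸ inter_subset_inter_right _ c₁
  have i₂ : β ∩ B₂ ⊆ {p, q} := hβB ▸ inter_subset_inter_right _ c₂
  obtain ⟨D₁, h₁, f₁⟩ := SCH.schoenflies (isCircle_of_arcs hβ b₁ i₁)
  obtain ⟨D₂, h₂, f₂⟩ := SCH.schoenflies (isCircle_of_arcs hβ b₂ i₂)
  have s₁ : D₁ ⊆ Q := ambDisc_subset hQ h₁
    (f₁ ▸ union_subset hβQ (c₁.trans hQ.isClosed.frontier_subset))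
  have s₂ : D₂ ⊆ Q := ambDisc_subset hQ h₂
    (f₂ ▸ union_subset hβQ (c₂.trans hQ.isClosed.frontier_subset))
  have e₁ := inter_frontier_eq h₁ s₁ f₁ (hβB ▸ pair_subset_arc b₁) c₁
  have e₂ := inter_frontier_eq h₂ s₂ f₂ (hβB ▸ pair_subset_arc b₂) c₂
  have d₁ := interior_disjoint h₁ h₂ s₁ f₁ f₂ e₂ b₁ c₁ hi.le
  have d₂ := interior_disjoint h₂ h₁ s₂ f₂ f₁ e₁ b₂ c₂ (inter_comm B₁ B₂ ▸ hi.le)
  have β₁ : β ⊆ D₁ := subset_union_left.trans (f₁ ▸ h₁.isClosed.frontier_subset)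
  have β₂ : β ⊆ D₂ := subset_union_left.trans (f₂ ▸ h₂.isClosed.frontier_subset)
  have hcl : IsClosed (D₁ ∪ D₂) := h₁.isClosed.union h₂.isClosed
  have hβi : β \ {p, q} ⊆ interior (D₁ ∪ D₂) := by
    intro x hx
    have hxB : x ∉ B₂ := fun hh => hx.2 (i₂ ⟨hx.1, hh⟩)
    obtain ⟨U, hU, hxU, hUN, hc⟩ := local_outside h₁ b₁ hβ (inter_comm β B₁ ▸ i₁)
      (f₁.trans (union_comm _ _)) hx (b₂.isClosed.isOpen_compl.mem_nhds hxB)
    have hdis : Disjoint (U \ D₁) (frontier D₂) := by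
      rw [Set.disjoint_left, f₂]
      rintro y hy (h | h)
      · exact hy.2 (β₁ h)
      · exact hUN hy.1 h
    have hx2 : x ∈ closure (interior D₂) := by
      rw [h₂.closure_interior]; exact β₂ hx.1
    obtain ⟨z, hzU, hz⟩ := mem_closure_iff.1 hx2 U hU hxU
    rcases subset_interior_or_compl hc hdis with k | k
    · refine mem_interior.2 ⟨U, fun y hy => ?_, hU, hxU⟩
      by_cases hy1 : y ∈ D₁
      · exact Or.inl hy1
      · exact Or.inr (interior_subset (k ⟨hy, hy1⟩))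
    · exact absurd (interior_subset_closure hz) (k ⟨hzU, fun hh => d₂.le_bot ⟨hz, hh⟩⟩)
  have hin : ∀ x ∈ D₁ ∪ D₂, x ∈ interior Q → x ∈ interior (D₁ ∪ D₂) := by
    intro x hx hxQ
    have hxf : x ∉ frontier Q := fun hh => hh.2 hxQ
    by_cases hxβ : x ∈ β
    · exact hβi ⟨hxβ, fun hh => hxf (c₁ (pair_subset_arc b₁ hh))⟩
    rcases hx with hx | hx
    · refine interior_mono subset_union_left ?_
      rw [← ambDisc_sdiff_frontier h₁, f₁]
      exact ⟨hx, fun hh => hh.elim hxβ fun k => hxf (c₁ k)⟩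
    · refine interior_mono subset_union_right ?_
      rw [← ambDisc_sdiff_frontier h₂, f₂]
      exact ⟨hx, fun hh => hh.elim hxβ fun k => hxf (c₂ k)⟩
  refine ⟨D₁, D₂, h₁, f₁, h₂, f₂, ?_, ?_, e₁, e₂⟩
  · apply (union_subset s₁ s₂).antisymm
    have k : interior Q ⊆ interior (D₁ ∪ D₂) := by
      refine hQ.isConnected_interior.isPreconnected.subset_of_closure_inter_subset
        isOpen_interior ?_ ?_
      · obtain ⟨x, hx⟩ := h₁.isConnected_interior.nonempty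
        exact ⟨x, interior_mono s₁ hx, interior_mono subset_union_left hx⟩
      · rintro x ⟨hx1, hx2⟩
        exact hin x (closure_minimal interior_subset hcl hx1) hx2
    rw [← hQ.closure_interior]
    exact closure_minimal (k.trans interior_subset) hcl
  · apply Subset.antisymm _ (subset_inter β₁ β₂)
    rintro x ⟨hx1, hx2⟩
    have k1 : x ∈ frontier D₁ := by
      by_contra hn
      exact d₁.le_bot ⟨ambDisc_sdiff_frontier h₁ ▸ (⟨hx1, hn⟩ : x ∈ D₁ \ frontier D₁), hx2⟩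
    have k2 : x ∈ frontier D₂ := by
      by_contra hn
      exact d₂.le_bot ⟨ambDisc_sdiff_frontier h₂ ▸ (⟨hx2, hn⟩ : x ∈ D₂ \ frontier D₂), hx1⟩
    rw [f₁] at k1
    rw [f₂] at k2
    rcases k1 with k1 | k1
    · exact k1
    · rcases k2 with k2 | k2
      · exact k2
      · exact pair_subset_arc hβ (hi ▸ (⟨k1, k2⟩ : x ∈ B₁ ∩ B₂))

theorem crosscut {D B β B₁ B₂ : Set E} {p q : E} (hD : ConBall 2 D B) (hβ : IsArc β p q)
    (hβD : β ⊆ D) (hβB : β ∩ B = {p, q}) (b₁ : IsArc B₁ p q) (b₂ : IsArc B₂ p q)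
    (hu : B₁ ∪ B₂ = B) (hi : B₁ ∩ B₂ = {p, q}) :
    ∃ D₁ D₂, ConBall 2 D₁ (β ∪ B₁) ∧ ConBall 2 D₂ (β ∪ B₂) ∧ D₁ ∪ D₂ = D ∧ D₁ ∩ D₂ = β ∧
      D₁ ∩ B = B₁ ∧ D₂ ∩ B = B₂ := by
  obtain ⟨hB, φ, hφ⟩ := conBall_two_iff.1 hD
  have c₁ : B₁ ⊆ D := (hu ▸ subset_union_left : B₁ ⊆ B).trans hB
  have c₂ : B₂ ⊆ D := (hu ▸ subset_union_right : B₂ ⊆ B).trans hB
  have hfr : frontier (closedBall (0 : ℝ × ℝ) 1) = φ.toFun '' B := frontier_square.trans hφ.symm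
  obtain ⟨D₁, D₂, h₁, f₁, h₂, f₂, k1, k2, k3, k4⟩ := crosscut_plane ambDisc_square
    (hβ.image φ hβD) (φ.imgSubD hβD)
    (by rw [hfr, ← φ.injOn.image_inter hβD hB, hβB, image_pair])
    (b₁.image φ c₁) (b₂.image φ c₂) (by rw [hfr, ← image_union, hu])
    (by rw [← φ.injOn.image_inter c₁ c₂, hi, image_pair])
  have s₁ : D₁ ⊆ closedBall 0 1 := k1 ▸ subset_union_left
  have s₂ : D₂ ⊆ closedBall 0 1 := k1 ▸ subset_union_right
  have hinj : InjOn φ.invFun (closedBall 0 1) := φ.symm.injOn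
  rw [hfr] at k3 k4
  refine ⟨φ.invFun '' D₁, φ.invFun '' D₂, ?_, ?_, ?_, ?_, ?_, ?_⟩
  · have := h₁.conBallD.image φ.symm s₁
    rwa [f₁, ← image_union, ConHomeo.symm_toFun, φ.invImgD (union_subset hβD c₁)] at this
  · have := h₂.conBallD.image φ.symm s₂
    rwa [f₂, ← image_union, ConHomeo.symm_toFun, φ.invImgD (union_subset hβD c₂)] at this
  · rw [← image_union, k1]
    exact φ.symm.image_eq
  · rw [← hinj.image_inter s₁ s₂, k2, φ.invImgD hβD]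
  · rw [← φ.invImgD c₁, ← k3, hinj.image_inter s₁ (φ.imgSubD hB), φ.invImgD hB]
  · rw [← φ.invImgD c₂, ← k4, hinj.image_inter s₂ (φ.imgSubD hB), φ.invImgD hB]

end A12

theorem xc : XC := fun {_} _ _ {_ _ _ _ _ _ _} => A12.crosscut

end P073
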