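import Vale.Agent.P073Z.A12.Arcs

/-!
# A circle in a disc bounds a unique subdisc
-/

open Set Metric Topology Filter

namespace P073

variable {E F : Type*} [NormedAddCommGroup E] [NormedSpace ℝ E]
  [NormedAddCommGroup F] [NormedSpace ℝ F]

namespace A12

/-- an ambient disc whose frontier lies in another one lies in it -/
theorem ambDisc_subset {Q Δ : Set (ℝ × ℝ)} (hQ : AmbDisc Q) (hΔ : AmbDisc Δ)
    (h : frontier Δ ⊆ Q) : Δ ⊆ Q := by
  have hdis : Disjoint Qᶜ (frontier Δ) := disjoint_compl_left_iff_subset.2 h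
  rcases subset_interior_or_compl hQ.isPreconnected_compl hdis with h1 | h1
  · exact absurd (hΔ.isCompact.isBounded.subset (h1.trans interior_subset))
      (not_isBounded_compl hQ.isCompact)
  · rwa [hΔ.isClosed.closure_eq, compl_subset_compl] at h1

theorem ambDisc_sdiff_frontier {Δ : Set (ℝ × ℝ)} (hΔ : AmbDisc Δ) :
    Δ \ frontier Δ = interior Δ := by
  rw [hΔ.isClosed.frontier_eq, sdiff_sdiff_right_self]
  exact inter_eq_right.2 interior_subset

/-- the coordinatewise retraction onto the square -/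
def clampSq (x : ℝ × ℝ) : ℝ × ℝ := (max (-1) (min 1 x.1), max (-1) (min 1 x.2))

theorem continuous_clampSq : Continuous clampSq := by
  unfold clampSq
  fun_prop

theorem abs_clamp_le (t : ℝ) : |max (-1) (min 1 t)| ≤ 1 :=
  abs_le.2 ⟨le_max_left _ _, max_le (by norm_num) (min_le_left _ _)⟩

theorem abs_clamp_eq {t : ℝ} (h : 1 < |t|) : |max (-1) (min 1 t)| = 1 := by
  rcases lt_abs.1 h with h | h
  · rw [min_eq_left h.le, max_eq_right (by norm_num), abs_one]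
  · rw [min_eq_right (by linarith), max_eq_left (by linarith), abs_neg, abs_one]

theorem clampSq_of_mem {x : ℝ × ℝ} (h : x ∈ closedBall (0 : ℝ × ℝ) 1) : clampSq x = x := by
  rw [mem_closedBall_zero_iff, Prod.norm_def, max_le_iff, Real.norm_eq_abs, Real.norm_eq_abs,
    abs_le, abs_le] at h
  unfold clampSq
  rw [min_eq_right h.1.2, max_eq_right h.1.1, min_eq_right h.2.2, max_eq_right h.2.1]

theorem clampSq_of_notMem {x : ℝ × ℝ} (h : x ∉ closedBall (0 : ℝ × ℝ) 1) :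
    clampSq x ∈ sphere (0 : ℝ × ℝ) 1 := by
  rw [mem_closedBall_zero_iff, Prod.norm_def, not_le, lt_max_iff, Real.norm_eq_abs,
    Real.norm_eq_abs] at h
  rw [mem_sphere_zero_iff_norm, Prod.norm_def, Real.norm_eq_abs, Real.norm_eq_abs]
  rcases h with h | h
  · show max |max (-1) (min 1 x.1)| |max (-1) (min 1 x.2)| = 1
    rw [abs_clamp_eq h]
    exact max_eq_left (abs_clamp_le _)
  · show max |max (-1) (min 1 x.1)| |max (-1) (min 1 x.2)| = 1
    rw [abs_clamp_eq h]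
    exact max_eq_right (abs_clamp_le _)

/-- the square minus a disc in its interior is connected -/
theorem square_sdiff_preconnected {Δ : Set (ℝ × ℝ)} (hΔ : AmbDisc Δ)
    (h : Disjoint Δ (sphere 0 1)) : IsPreconnected (closedBall (0 : ℝ × ℝ) 1 \ Δ) := by
  have e : clampSq '' Δᶜ = closedBall (0 : ℝ × ℝ) 1 \ Δ := by
    apply Subset.antisymm
    · rintro _ ⟨x, hx, rfl⟩
      by_cases hxQ : x ∈ closedBall (0 : ℝ × ℝ) 1
      · rw [clampSq_of_mem hxQ]; exact ⟨hxQ, hx⟩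
      · have := clampSq_of_notMem hxQ
        exact ⟨sphere_subset_closedBall this, fun hh => h.le_bot ⟨hh, this⟩⟩
    · rintro x ⟨hx, hx'⟩
      exact ⟨x, hx', clampSq_of_mem hx⟩
  rw [← e]
  exact hΔ.isPreconnected_compl.image _ continuous_clampSq.continuousOn

theorem img_sdiff {X S T : Set E} {Y : Set F} (φ : ConHomeo X Y) (hS : S ⊆ X) (hT : T ⊆ X) :
    φ.toFun '' (S \ T) = φ.toFun '' S \ φ.toFun '' T := by
  ext y
  constructor
  · rintro ⟨x, ⟨hx, hx'⟩, rfl⟩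
    exact ⟨mem_image_of_mem _ hx, fun hh => hx' ((φ.memImgD hT (hS hx)).1 hh)⟩
  · rintro ⟨⟨x, hx, rfl⟩, hx'⟩
    exact ⟨x, ⟨hx, fun hh => hx' (mem_image_of_mem _ hh)⟩, rfl⟩

theorem circle_image {J X : Set E} {Y : Set F} (hJ : IsCircle J) (φ : ConHomeo X Y) (h : J ⊆ X) :
    IsCircle (φ.toFun '' J) := by
  have hc := hJ.locCone.conicalSet
  obtain ⟨ψ⟩ := hJ
  exact ⟨ψ.trans (φ.restr hc h)⟩

/-- two discs in a disc with the same boundary are equal -/
theorem subdisc_unique (hI : IOD) {D B J Δ Δ' : Set E} (hD : ConBall 2 D B) (h : ConBall 2 Δ J)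
    (h' : ConBall 2 Δ' J) (s : Δ ⊆ D) (s' : Δ' ⊆ D) : Δ = Δ' := by
  obtain ⟨-, φ, -⟩ := conBall_two_iff.1 hD
  obtain ⟨a, b⟩ := (h.image φ s).ambDiscD hI
  obtain ⟨a', b'⟩ := (h'.image φ s').ambDiscD hI
  have e := a.eq_of_frontier_eq a' (b.symm.trans b')
  rw [← φ.invImgD s, ← φ.invImgD s', e]

theorem exists_subdisc {D B J : Set E} (hD : ConBall 2 D B) (hJ : IsCircle J) (hJD : J ⊆ D) :
    ∃ Δ, Δ ⊆ D ∧ ConBall 2 Δ J ∧ Disjoint (Δ \ J) B ∧
    (∀ x ∈ Δ \ J, Δ ∈ 𝓝[D] x) ∧ (∀ x ∈ J \ B, x ∈ closure (D \ Δ)) ∧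
    (Disjoint J B → IsPreconnected (D \ Δ)) := by
  obtain ⟨hB, φ, hφ⟩ := conBall_two_iff.1 hD
  obtain ⟨Δ, hΔ, hf⟩ := SCH.schoenflies (circle_image hJ φ hJD)
  have hΔQ : Δ ⊆ closedBall 0 1 := ambDisc_subset ambDisc_square hΔ (hf ▸ φ.imgSubD hJD)
  have hint : ∀ x ∈ φ.invFun '' Δ \ J, x ∈ D ∧ φ.toFun x ∈ interior Δ := by
    rintro x ⟨hx, hxJ⟩
    obtain ⟨hxD, hx'⟩ := (φ.memInvD hΔQ).1 hx
    refine ⟨hxD, ?_⟩
    rw [← ambDisc_sdiff_frontier hΔ, hf]
    exact ⟨hx', fun hh => hxJ ((φ.memImgD hJD hxD).1 hh)⟩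
  have hiQ : interior Δ ⊆ ball 0 1 := by
    rw [← interior_closedBall _ one_ne_zero]
    exact interior_mono hΔQ
  have hcompl : φ.invFun '' (closedBall 0 1 \ Δ) = D \ φ.invFun '' Δ := by
    have := img_sdiff φ.symm Subset.rfl hΔQ
    rwa [φ.symm.image_eq] at this
  refine ⟨φ.invFun '' Δ, φ.invSubD hΔQ, ?_, ?_, ?_, ?_, ?_⟩
  · have := hΔ.conBallD.image φ.symm hΔQ
    rwa [hf, ConHomeo.symm_toFun, φ.invImgD hJD] at this
  · rw [Set.disjoint_left]
    intro x hx hxB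
    have h1 := hiQ (hint x hx).2
    have h2 : φ.toFun x ∈ sphere (0 : ℝ × ℝ) 1 := hφ ▸ mem_image_of_mem _ hxB
    rw [mem_ball_zero_iff] at h1
    rw [mem_sphere_zero_iff_norm] at h2
    exact h1.ne h2
  · intro x hx
    obtain ⟨hxD, hx'⟩ := hint x hx
    have h1 : φ.toFun ⁻¹' Δ ∈ 𝓝[D] x := φ.cont x hxD (mem_interior_iff_mem_nhds.1 hx')
    filter_upwards [h1, self_mem_nhdsWithin] with y hy hyD
    exact (φ.memInvD hΔQ).2 ⟨hyD, hy⟩
  · rintro x ⟨hxJ, hxB⟩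
    have hxD := hJD hxJ
    have h1 : φ.toFun x ∈ closure Δᶜ := by
      have : φ.toFun x ∈ frontier Δ := hf ▸ mem_image_of_mem _ hxJ
      rw [frontier_eq_closure_inter_closure] at this
      exact this.2
    have h2 : φ.toFun x ∈ ball (0 : ℝ × ℝ) 1 := by
      rw [← closedBall_sdiff_sphere, ← hφ]
      exact ⟨φ.mapsTo hxD, fun hh => hxB ((φ.memImgD hB hxD).1 hh)⟩
    have h3 : φ.toFun x ∈ closure (closedBall 0 1 \ Δ) :=
      closure_mono (inter_subset_inter_left _ ball_subset_closedBall)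
        (isOpen_ball.inter_closure ⟨h2, h1⟩)
    have h4 := ((φ.cont_inv _ (φ.mapsTo hxD)).mono sdiff_subset).mem_closure_image h3
    rwa [φ.left_inv hxD, hcompl] at h4
  · intro hJB
    rw [← hcompl]
    refine (square_sdiff_preconnected hΔ ?_).image _ (φ.cont_inv.mono sdiff_subset)
    rw [Set.disjoint_left]
    intro y hy hyS
    by_cases hyf : y ∈ frontier Δ
    · rw [hf] at hyf
      obtain ⟨x, hx, rfl⟩ := hyf
      rw [← hφ, φ.memImgD hB (hJD hx)] at hyS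
      exact hJB.le_bot ⟨hx, hyS⟩
    · have h1 : y ∈ interior Δ := ambDisc_sdiff_frontier hΔ ▸ (⟨hy, hyf⟩ : y ∈ Δ \ frontier Δ)
      have h2 := hiQ h1
      rw [mem_ball_zero_iff] at h2
      rw [mem_sphere_zero_iff_norm] at hyS
      exact h2.ne hyS

end A12

open A12 in
theorem cid_of (hI : IOD) : CID := by
  intro E _ _ D B J hD hJ hJD
  obtain ⟨Δ, h1, h2, h3⟩ := exists_subdisc hD hJ hJD
  exact ⟨Δ, h1, h2, fun Δ' s h => subdisc_unique hI hD h h2 s h1, h3⟩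

end P073
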